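import Vale.Agent.P160.Concentrated

namespace Vale.Agent.Results.P160.StructuredKernel

open Vale.Agent.P160 Finset

open scoped Classical in
/-- Kernel vectors with many zeros, or with few values on many coordinates, occur with probability
at most `17 n⁴ 2⁻ⁿ`. -/
theorem result : ∀ a : ℝ, 0 ≤ a → a < 1 / 2 → ∃ N : ℕ, ∀ n ≥ N, ∀ z₀ z r : ℕ,
    40 * (n : ℝ) ≤ z₀ * Real.logb 2 n → 64 * (n : ℝ) ≤ (1 - 2 * a) * (z * Real.logb 2 n) →
    (r : ℝ) ≤ (n : ℝ) ^ a →
    (#{x : Upper n → Bool | SparseSingular x z₀ ∨ FewValues x r z} : ℝ)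
        / 2 ^ Fintype.card (Upper n) ≤ 17 * (n : ℝ) ^ 4 / 2 ^ n :=
  fun a ha0 ha => structured_singular_le a ha0 ha

end Vale.Agent.Results.P160.StructuredKernel
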